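import Crest.Agent.X262.Eul76.Nrv
import Crest.Agent.X262.Kah.BrgA
import Crest.Agent.X262.PD.Dual
import Crest.Agent.X262.Man.PM
import Crest.Agent.X262.Lat.NDefs

/-!
# X262/Eul76 (helper76), file Main: the Euler number of a surface

* `dgF k` : the component of degree `k` of a form;  `equivH` : comparison with `Lat.bet`;
* `exists_int`, `bet_le`, `bet_symm` : Poincare duality;
* `nv_eq` : `nv A = ∑ (-1)^k b_k`;  `eulStmt : Lat.EulStmt`.
-/

set_option autoImplicit false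
set_option linter.unusedSectionVars false

open Set Filter Topology TopologicalSpace Module
open scoped ContDiff

noncomputable section

namespace Crest.Agent.X262.Eul76

open Crest.Agent.R208.F Crest.Agent.R208.FI Crest.Agent.R208.CW Crest.Agent.R275.Geo
  Crest.Agent.X262.Kah Crest.Agent.X262.Frm Crest.Agent.X262.Lat
open Crest.Agent.R275 (GC293.GoodA)
open Crest.Agent.X262.Man (Emb)

variable {n : ℕ} {M : Type} [TopologicalSpace M] {A : Atl n M} {k l : ℕ} {u v : FS A}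

variable (A) in
/-- the component of degree `k` -/
def dgF (k : ℕ) : Module.End ℂ (FS A) := EF.op A (EF.cst A (dg k) fun _ c => dg_pbC _ k c)

theorem dgF_apply (k : ℕ) (u : FS A) (i : A.ι) (z : Cn n) :
    (dgF A k u).1 i z = dg k (u.1 i z) := rfl

theorem dgF_deg (k : ℕ) (u : FS A) (i : A.ι) (z : Cn n) : (dgF A k u).1 i z ∈ Dg (Cn n) k :=
  dg_mem _ _

theorem dgF_self (h : ∀ i z, u.1 i z ∈ Dg (Cn n) k) : dgF A k u = u :=
  FS.ext' fun i z _ => dg_self (h i z)

theorem dgF_dF_succ (k : ℕ) (u : FS A) : dgF A (k + 1) (dF A u) = dF A (dgF A k u) :=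
  FS.ext' fun i z hz => by
    rw [dgF_apply, dF_apply _ hz, dF_apply _ hz]
    exact dg_dC ((cd_iff.1 (u.sm hz)).differentiableAt (by simp)) k

theorem dgF_dF_zero (u : FS A) : dgF A 0 (dF A u) = 0 := FS.ext' fun i z hz => by
  rw [dgF_apply, dF_apply _ hz]
  exact dg_dC_zero ((cd_iff.1 (u.sm hz)).differentiableAt (by simp))

theorem sum_dgF (u : FS A) : ∑ k ∈ Finset.range (2 * n + 1), dgF A k u = u :=
  FS.ext' fun i z _ => by
    rw [FS.sum_apply, ← finrank_Cn]
    exact sum_dg_range _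

theorem dgF_mem (h : dF A u = 0) (k : ℕ) : dgF A k u ∈ Zk A k :=
  mem_Zk.2 ⟨by rw [← dgF_dF_succ, h, map_zero], dgF_deg k u⟩

variable (A k) in
/-- forms on the whole manifold -/
def toFS : FO A ⊤ k →ₗ[ℂ] FS A where
  toFun u := ⟨u.1, fun _ _ hz => u.sm ⟨hz, trivial⟩, fun _ _ hz => u.off fun h => hz h.1,
    fun _ _ _ hz => u.tr' hz⟩
  map_add' _ _ := rfl
  map_smul' _ _ := rfl

theorem toFS_inj : Function.Injective (toFS A k) := fun _ _ h => Subtype.ext (congrArg FS.f h)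

theorem exists_toFS (h : ∀ i z, u.1 i z ∈ Dg (Cn n) k) : ∃ w, toFS A k w = u :=
  ⟨⟨u.1, fun _ _ hz => u.sm hz.1, fun _ _ hz => u.off fun h => hz ⟨h, trivial⟩,
    fun _ _ _ hz => u.tr' hz, h⟩, rfl⟩

theorem toFS_d (w : FO A ⊤ k) : toFS A (k + 1) (dO A ⊤ k w) = dF A (toFS A k w) :=
  FS.ext' fun i z hz => (dO_apply w ⟨hz, trivial⟩).trans (dF_apply (toFS A k w) hz).symm

theorem mem_B_iff (w : FO A ⊤ k) : w ∈ (cx A ⊤).B k ↔ toFS A k w ∈ LinearMap.range (dF A) := by
  have h0 : dgF A k (toFS A k w) = toFS A k w := dgF_self w.deg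
  rcases k with _ | k
  · refine ⟨fun h => ?_, fun ⟨v, hv⟩ => ?_⟩
    · obtain rfl : w = 0 := h
      rw [map_zero]
      exact zero_mem _
    · rw [← hv, dgF_dF_zero, hv, ← map_zero (toFS A 0)] at h0
      exact (toFS_inj h0).symm
  · refine ⟨fun ⟨v, hv⟩ => ⟨toFS A k v, by rw [← toFS_d]; exact congrArg _ hv⟩, fun ⟨v, hv⟩ => ?_⟩
    obtain ⟨v', e⟩ := exists_toFS (dgF_deg k v)
    refine ⟨v', toFS_inj ((toFS_d v').trans ?_)⟩
    rw [e, ← dgF_dF_succ, hv, h0]

variable (A k) in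
/-- de Rham cohomology -/
abbrev HB : Type := Zk A k ⧸ (LinearMap.range (dF A)).comap (Zk A k).subtype

theorem equivH : Nonempty ((cx A ⊤).H k ≃ₗ[ℂ] HB A k) := by
  let f : (cx A ⊤).Z k →ₗ[ℂ] Zk A k := (toFS A k).restrict fun w hw =>
    mem_Zk.2 ⟨by rw [← toFS_d, show dO A ⊤ k w = 0 from hw, map_zero], FO.deg w⟩
  have hf : Function.Bijective f := by
    refine ⟨fun a b h => Subtype.ext (toFS_inj (congrArg Subtype.val h)), fun u => ?_⟩
    obtain ⟨w, hw⟩ := exists_toFS (mem_Zk.1 u.2).2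
    refine ⟨⟨w, toFS_inj ((toFS_d w).trans ?_)⟩, Subtype.ext hw⟩
    rw [hw, (mem_Zk.1 u.2).1]
    exact (map_zero (toFS A (k + 1))).symm
  refine ⟨Submodule.Quotient.equiv _ _ (LinearEquiv.ofBijective f hf) (le_antisymm ?_ ?_)⟩
  · rintro _ ⟨w, hw, rfl⟩
    exact (mem_B_iff w.1).1 hw
  · intro u hu
    obtain ⟨w, rfl⟩ := hf.2 u
    exact ⟨w, (mem_B_iff w.1).2 hu, rfl⟩

theorem bet_eq : finrank ℂ ((cx A ⊤).H k) = bet A k := equivH.some.finrank_eq

theorem finite_HB (hA : GC293.GoodA A) (P : Part A) [Finite A.ι] (k : ℕ) :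
    FiniteDimensional ℂ (HB A k) := by
  letI := Fintype.ofFinite A.ι
  have := (nerve hA P).1 k
  exact equivH.some.finiteDimensional

/-- the Euler characteristic of the nerve -/
theorem nv_eq [Fintype A.ι] (hA : GC293.GoodA A) (P : Part A) :
    nv A = ∑ k ∈ Finset.range (2 * n + 1), (-1 : ℤ) ^ k * bet A k := by
  rw [nv, ← (nerve hA P).2, R275.EDR890.Cx.chi]
  simp only [bet_eq]

theorem bet_zero [ConnectedSpace M] (hA : GC293.GoodA A) : bet A 0 = 1 :=
  bet_eq.symm.trans (h0_top hA)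

/-! ### Poincare duality -/

variable {E : Type} [NormedAddCommGroup E] [NormedSpace ℝ E] [FiniteDimensional ℝ E]
  [CompactSpace M]

theorem exists_int (ε : Emb A E) : ∃ I : FS A →ₗ[ℂ] ℂ, (∀ v, I (dF A v) = 0) ∧
    (∀ j u, j ≠ 2 * n → (∀ i z, u.1 i z ∈ Dg (Cn n) j) → I u = 0) ∧
    ∀ u, (∀ v, dF A v = 0 → I (u * v) = 0) → u ∈ LinearMap.range (dF A) := by
  let I0 : SA ε.X →ₗ[ℂ] ℂ :=
    { toFun := fun w => JC (2 * n) ε.X ε.ori w.1
      map_add' := fun a b => JC_add ε.clo ε.isOri a.2 b.2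
      map_smul' := fun c a => JC_csmul ε.clo ε.isOri c a.2 }
  obtain ⟨g, hg⟩ := (res ε).toLinearMap.exists_rightInverse_of_surjective
    (LinearMap.range_eq_top.2 (res_surj ε))
  have hI : ∀ w (h : Smo ε.X w), (I0 ∘ₗ g) (res0 ε w h) = JC (2 * n) ε.X ε.ori w := fun w h =>
    JC_congr ε.clo ((res0_eq_iff ε (g (res0 ε w h)).2 h).1 (LinearMap.congr_fun hg _))
  refine ⟨I0 ∘ₗ g, fun v => ?_, fun j u hj hu => ?_, fun u hu => ?_⟩
  · obtain ⟨w, h, rfl⟩ := exists_res0 ε v
    rw [← res0_d, hI, JC_dC ε.clo ε.isOri (smo_of h)]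
  · obtain ⟨w, h, rfl⟩ := exists_res0 ε u
    have key : ∀ x ∈ ε.X, ∀ t : Fin (2 * n) → E, (∀ l, t l ∈ Tan ε.X x) →
        evC E (2 * n) t (w x) = 0 := by
      refine ε.forall_par.2 fun i z hz t ht => ?_
      simp only [ε.tan_eq hz] at ht
      choose s hs using ht
      have h1 := evC_of_Dg (hu i z) hj s
      rw [res0_apply ε _ hz, pullC, evC_pbC] at h1
      rw [← funext hs]
      exact h1
    rw [hI]
    refine Complex.ext (J_eq_zero ε.clo fun x hx t ht => ?_) (J_eq_zero ε.clo fun x hx t ht => ?_)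
    · rw [← evC_re, key x hx t ht, Complex.zero_re]
    · rw [← evC_im, key x hx t ht, Complex.zero_im]
  · obtain ⟨w, h, rfl⟩ := exists_res0 ε u
    have key : ∀ φ, R208.T.Sm ε.X φ → R208.T.Cl ε.X φ →
        J (2 * n) ε.X ε.ori ((fun y => (w y).re) * φ) = 0 ∧
        J (2 * n) ε.X ε.ori ((fun y => (w y).im) * φ) = 0 := by
      intro φ sφ cφ
      have s1 : Smo ε.X fun y => (⟨φ y, 0⟩ : CF E) := fun x hx => ⟨sφ x hx, contDiffAt_const⟩
      have h1 := hu (res0 ε _ s1) (by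
        rw [← res0_d, ← res0_zero ε, res0_eq_iff]
        intro x hx
        refine Cx.ext ((cφ x hx).trans (map_zero _).symm) ?_
        exact congrArg (pb _) (d_const _ _))
      rw [← res0_mul, hI] at h1
      refine ⟨Eq.trans ?_ (congrArg Complex.re h1), Eq.trans ?_ (congrArg Complex.im h1)⟩
      · exact congrArg _ (funext fun y => by simp)
      · exact congrArg _ (funext fun y => by simp)
    obtain ⟨ξ, s1, e1⟩ := PD.pd_inj ε.clo ε.isOri (fun x _ => (h x).re) fun φ s c => (key φ s c).1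
    obtain ⟨η, s2, e2⟩ := PD.pd_inj ε.clo ε.isOri (fun x _ => (h x).im) fun φ s c => (key φ s c).2
    have s3 : Smo ε.X fun y => (⟨ξ y, η y⟩ : CF E) := fun x hx => ⟨s1 x hx, s2 x hx⟩
    refine ⟨res0 ε _ s3, ?_⟩
    rw [← res0_d, res0_eq_iff]
    rw [sub_zero, R208.T.eqv_iff] at e1 e2
    exact fun x hx => Cx.ext (e1 x hx).symm (e2 x hx).symm

theorem bet_le (ε : Emb A E) (hkl : k + l = 2 * n) [FiniteDimensional ℂ (HB A l)] :
    bet A k ≤ bet A l := by
  obtain ⟨I, h1, h2, h3⟩ := exists_int ε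
  let β : Zk A k →ₗ[ℂ] Zk A l →ₗ[ℂ] ℂ :=
    ((LinearMap.mul ℂ (FS A)).compr₂ I).compl₁₂ (Zk A k).subtype (Zk A l).subtype
  have hβ : ∀ a b, β a b = I (a.1 * b.1) := fun _ _ => rfl
  let γ : HB A k →ₗ[ℂ] Dual ℂ (HB A l) := LinearMap.liftQ₂ _ _ β
    (by
      rintro a ⟨w, hw⟩
      refine LinearMap.ext fun b => ?_
      have h := h1 (w * b.1)
      rw [dF_mul, (mem_Zk.1 b.2).1, mul_zero, add_zero, hw] at h
      exact h)
    (by
      rintro b ⟨w, hw⟩
      refine LinearMap.ext fun a => ?_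
      have h := h1 (invF A a.1 * w)
      rw [dF_mul, dF_invF, (mem_Zk.1 a.2).1, map_zero, neg_zero, zero_mul, zero_add, invF_invF,
        hw] at h
      exact h)
  have hγ : Function.Injective γ := by
    refine (injective_iff_map_eq_zero _).2 fun a ha => ?_
    obtain ⟨a, rfl⟩ := Submodule.Quotient.mk_surjective _ a
    refine (Submodule.Quotient.mk_eq_zero _).2 (h3 a.1 fun v hv => ?_)
    rw [← sum_dgF v, Finset.mul_sum, map_sum]
    refine Finset.sum_eq_zero fun j _ => ?_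
    by_cases hj : j = l
    · subst hj
      exact LinearMap.congr_fun ha (Submodule.Quotient.mk ⟨_, dgF_mem hv j⟩)
    · exact h2 (k + j) _ (by omega) fun i z => Dg_mul ((mem_Zk.1 a.2).2 i z) (dgF_deg j v i z)
  exact (LinearMap.finrank_le_finrank_of_injective hγ).trans_eq Subspace.dual_finrank_eq

/-- **Poincare duality** for the Betti numbers -/
theorem bet_symm (ε : Emb A E) (hA : GC293.GoodA A) (P : Part A) [Finite A.ι]
    (hkl : k + l = 2 * n) : bet A k = bet A l := by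
  have := finite_HB hA P k
  have := finite_HB hA P l
  exact le_antisymm (bet_le ε hkl) (bet_le ε (add_comm k l ▸ hkl))

theorem eulStmt : EulStmt := by
  intro F _ _ P _ X _
  have := Man.connectedP P
  have h0 := bet_zero X.good
  have h4 := bet_symm (Man.emb X) X.good X.PA (k := 4) (l := 0) rfl
  have h3 := bet_symm (Man.emb X) X.good X.PA (k := 3) (l := 1) rfl
  rw [nv_eq X.good X.PA]
  simp only [Finset.sum_range_succ, Finset.range_zero, Finset.sum_empty, h4, h3, h0]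
  ring

end Crest.Agent.X262.Eul76
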