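import Crest.Agent.X262.Kah.FS
import Crest.Agent.X262.Frm.Dol
import Crest.Agent.R275.EDRAtl_890

/-!
# X262/Eul76 (helper76), file Mv: the de Rham complex of an open set, Mayer-Vietoris

* `FO A U k` : smooth complex forms of degree `k` on the open set `U`, read in the charts;
* `cx A U`   : the de Rham complex of `U`;  `mv` : the Mayer-Vietoris sequence.
-/

set_option autoImplicit false
set_option linter.unusedSectionVars false

open Set Filter Topology TopologicalSpace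
open scoped ContDiff

noncomputable section

namespace Crest.Agent.X262.Eul76

open Crest.Agent.R208.F Crest.Agent.R208.CW Crest.Agent.R275.Geo Crest.Agent.X262.Kah
  Crest.Agent.X262.Frm
open Crest.Agent.R275 (EDR890.Cx)
open Crest.Agent.R275.EDR890 (IsBump)

variable {n : ℕ} {M : Type} [TopologicalSpace M] {A : Atl n M} {U V W : Opens M} {i j l : A.ι}
  {z : Cn n} {k : ℕ} {x : M}

/-- the open set `U` read in the chart `i` -/
def dm (A : Atl n M) (U : Opens M) (i : A.ι) : Set (Cn n) :=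
  (A.e i).target ∩ (A.e i).symm ⁻¹' (U : Set M)

theorem isOpen_dm : IsOpen (dm A U i) := (A.e i).isOpen_inter_preimage_symm U.isOpen

theorem dm_nhds (hz : z ∈ dm A U i) : dm A U i ∈ 𝓝 z := isOpen_dm.mem_nhds hz

theorem dm_tr (hz : z ∈ A.ov i j) : tr A i j z ∈ dm A U j ↔ z ∈ dm A U i := by
  rw [dm, dm, mem_inter_iff, mem_inter_iff, mem_preimage, mem_preimage, symm_tr hz]
  exact and_congr_left' ⟨fun _ => hz.1, fun _ => tr_mem hz⟩

theorem dm_mono (h : V ≤ U) : dm A V i ⊆ dm A U i := fun _ hz => ⟨hz.1, h hz.2⟩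

theorem e_mem_dm (hx : x ∈ (A.e i).source) (hU : x ∈ U) : A.e i x ∈ dm A U i :=
  ⟨(A.e i).map_source hx, by rw [mem_preimage, (A.e i).left_inv hx]; exact hU⟩

theorem mem_dm_sup : z ∈ dm A (W ⊔ U) i ↔ z ∈ dm A W i ∨ z ∈ dm A U i :=
  ⟨fun h => h.2.imp (fun h' => ⟨h.1, h'⟩) fun h' => ⟨h.1, h'⟩,
    fun h => h.elim (fun h' => dm_mono le_sup_left h') fun h' => dm_mono le_sup_right h'⟩

theorem mem_dm_inf : z ∈ dm A (W ⊓ U) i ↔ z ∈ dm A W i ∧ z ∈ dm A U i :=
  ⟨fun h => ⟨⟨h.1, h.2.1⟩, h.1, h.2.2⟩, fun h => ⟨h.1.1, h.1.2, h.2.2⟩⟩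

/-- smooth forms of degree `k` on `U` -/
def FOs (A : Atl n M) (U : Opens M) (k : ℕ) : Submodule ℂ (A.ι → Cn n → Fb n) where
  carrier := {u | (∀ i, ∀ z ∈ dm A U i, CD ∞ (u i) z) ∧ (∀ i, ∀ z ∉ dm A U i, u i z = 0) ∧
    (∀ i j, ∀ z ∈ A.ov i j, u i z = pbC (Dtr A i j z) (u j (tr A i j z))) ∧
    ∀ i z, u i z ∈ Dg (Cn n) k}
  add_mem' := by
    rintro u v ⟨h1, h2, h3, h4⟩ ⟨k1, k2, k3, k4⟩
    refine ⟨fun i z hz => (h1 i z hz).add (k1 i z hz), fun i z hz => ?_, fun i j z hz => ?_,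
      fun i z => add_mem (h4 i z) (k4 i z)⟩
    · simp [h2 i z hz, k2 i z hz]
    · simp [h3 i j z hz, k3 i j z hz]
  zero_mem' := ⟨fun i z _ => CD.const 0, fun i z _ => rfl, fun i j z _ => by simp,
    fun _ _ => zero_mem _⟩
  smul_mem' := by
    rintro c u ⟨h1, h2, h3, h4⟩
    refine ⟨fun i z hz => (h1 i z hz).csmul c, fun i z hz => ?_, fun i j z hz => ?_,
      fun i z => Submodule.smul_mem _ c (h4 i z)⟩
    · simp [h2 i z hz]
    · simp [h3 i j z hz]

/-- smooth forms of degree `k` on `U` -/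
abbrev FO (A : Atl n M) (U : Opens M) (k : ℕ) : Type := FOs A U k

namespace FO

theorem sm (u : FO A U k) (hz : z ∈ dm A U i) : CD ∞ (u.1 i) z := u.2.1 i z hz
theorem off (u : FO A U k) (hz : z ∉ dm A U i) : u.1 i z = 0 := u.2.2.1 i z hz
theorem tr' (u : FO A U k) (hz : z ∈ A.ov i j) :
    u.1 i z = pbC (Dtr A i j z) (u.1 j (tr A i j z)) := u.2.2.2.1 i j z hz
theorem deg (u : FO A U k) (i : A.ι) (z : Cn n) : u.1 i z ∈ Dg (Cn n) k := u.2.2.2.2 i z

theorem diff (u : FO A U k) (hz : z ∈ dm A U i) : DifferentiableAt ℝ (u.1 i) z :=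
  (cd_iff.1 (u.sm hz)).differentiableAt (by simp)

theorem ext' {u v : FO A U k} (h : ∀ i, ∀ z ∈ dm A U i, u.1 i z = v.1 i z) : u = v := by
  refine Subtype.ext (funext fun i => funext fun z => ?_)
  by_cases hz : z ∈ dm A U i
  · exact h i z hz
  · rw [u.off hz, v.off hz]

/-- on an open subset of a chart it is enough to compare in that chart -/
theorem ext_chart (hU : (U : Set M) ⊆ (A.e i).source) {u v : FO A U k}
    (h : ∀ z ∈ dm A U i, u.1 i z = v.1 i z) : u = v :=
  ext' fun j z hz => by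
    have h1 : z ∈ A.ov j i := ⟨hz.1, hU hz.2⟩
    rw [u.tr' h1, v.tr' h1, h _ ((dm_tr h1).2 hz)]

/-- a form from a family with the required properties on `U` -/
def mk' (u : A.ι → Cn n → Fb n) (h1 : ∀ i, ∀ z ∈ dm A U i, CD ∞ (u i) z)
    (h3 : ∀ i j, ∀ z ∈ A.ov i j, z ∈ dm A U i → u i z = pbC (Dtr A i j z) (u j (tr A i j z)))
    (h4 : ∀ i, ∀ z ∈ dm A U i, u i z ∈ Dg (Cn n) k) : FO A U k :=
  ⟨fun i => (dm A U i).indicator (u i),
    fun i z hz => (h1 i z hz).congr (by
      filter_upwards [dm_nhds hz] with y hy using indicator_of_mem hy _),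
    fun i z hz => indicator_of_notMem hz _,
    fun i j z hz => by
      beta_reduce
      by_cases h : z ∈ dm A U i
      · rw [indicator_of_mem h, indicator_of_mem ((dm_tr hz).2 h), h3 i j z hz h]
      · rw [indicator_of_notMem h, indicator_of_notMem (mt (dm_tr hz).1 h), map_zero],
    fun i z => by
      beta_reduce
      by_cases h : z ∈ dm A U i
      · rw [indicator_of_mem h]; exact h4 i z h
      · rw [indicator_of_notMem h]; exact zero_mem _⟩

theorem mk'_apply {u : A.ι → Cn n → Fb n} {h1 h3 h4} (hz : z ∈ dm A U i) :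
    (mk' (U := U) (k := k) u h1 h3 h4).1 i z = u i z := indicator_of_mem hz _

theorem mk'_ev {u : A.ι → Cn n → Fb n} {h1 h3 h4} (hz : z ∈ dm A U i) :
    (mk' (U := U) (k := k) u h1 h3 h4).1 i =ᶠ[𝓝 z] u i := by
  filter_upwards [dm_nhds hz] with y hy using mk'_apply hy

end FO

/-- exterior derivative -/
def d0 (u : FO A U k) : FO A U (k + 1) :=
  FO.mk' (fun i => dC (u.1 i)) (fun _ _ hz => (u.sm hz).dC (by simp))
    (fun i j z hz hU => by
      have h1 : u.1 i =ᶠ[𝓝 z] pullC (tr A i j) (u.1 j) := by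
        filter_upwards [(isOpen_ov' i j).mem_nhds hz] with y hy using u.tr' hy
      rw [dC_congr h1, dC_pullC ((tr_contDiffAt hz).of_le two_le_inf)
        ((u.sm ((dm_tr hz).2 hU)).of_le one_le_inf)]
      rfl)
    fun i _ hz => Dg_dC (u.diff hz) (Eventually.of_forall (u.deg i))

theorem d0_apply (u : FO A U k) (hz : z ∈ dm A U i) : (d0 u).1 i z = dC (u.1 i) z :=
  FO.mk'_apply hz

variable (A U k) in
/-- exterior derivative -/
def dO : FO A U k →ₗ[ℂ] FO A U (k + 1) where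
  toFun := d0
  map_add' u v := FO.ext' fun i z hz => by
    show _ = (d0 u).1 i z + (d0 v).1 i z
    rw [d0_apply _ hz, d0_apply _ hz, d0_apply _ hz]
    exact dC_add ((u.sm hz).of_le one_le_inf) ((v.sm hz).of_le one_le_inf)
  map_smul' c u := FO.ext' fun i z hz => by
    show _ = c • (d0 u).1 i z
    rw [d0_apply _ hz, d0_apply _ hz]
    exact dC_csmul c ((u.sm hz).of_le one_le_inf)

theorem dO_apply (u : FO A U k) (hz : z ∈ dm A U i) : (dO A U k u).1 i z = dC (u.1 i) z :=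
  d0_apply u hz

theorem dO_dO (u : FO A U k) : dO A U (k + 1) (dO A U k u) = 0 := FO.ext' fun i z hz => by
  have h1 : (dO A U k u).1 i =ᶠ[𝓝 z] dC (u.1 i) := by
    filter_upwards [dm_nhds hz] with y hy using dO_apply u hy
  rw [dO_apply _ hz, dC_congr h1, dC_dC ((u.sm hz).of_le two_le_inf)]
  rfl

variable (A U) in
/-- the de Rham complex of an open set -/
def cx : EDR890.Cx ℂ where
  M k := FO A U k
  d := dO A U
  dd _ := dO_dO

/-- restriction -/
def r0 (h : V ≤ U) (u : FO A U k) : FO A V k :=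
  FO.mk' u.1 (fun _ _ hz => u.sm (dm_mono h hz)) (fun _ _ _ hz _ => u.tr' hz) fun i z _ => u.deg i z

theorem r0_apply (h : V ≤ U) (u : FO A U k) (hz : z ∈ dm A V i) : (r0 h u).1 i z = u.1 i z :=
  FO.mk'_apply hz

variable (A k) in
/-- restriction -/
def rO (h : V ≤ U) : FO A U k →ₗ[ℂ] FO A V k where
  toFun := r0 h
  map_add' u v := FO.ext' fun i z hz => by
    show _ = (r0 h u).1 i z + (r0 h v).1 i z
    rw [r0_apply _ _ hz, r0_apply _ _ hz, r0_apply _ _ hz]
    rfl
  map_smul' c u := FO.ext' fun i z hz => by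
    show _ = c • (r0 h u).1 i z
    rw [r0_apply _ _ hz, r0_apply _ _ hz]
    rfl

theorem rO_apply (h : V ≤ U) (u : FO A U k) (hz : z ∈ dm A V i) : (rO A k h u).1 i z = u.1 i z :=
  r0_apply h u hz

theorem rO_dO (h : V ≤ U) (u : FO A U k) :
    rO A (k + 1) h (dO A U k u) = dO A V k (rO A k h u) := FO.ext' fun i z hz => by
  have h1 : (rO A k h u).1 i =ᶠ[𝓝 z] u.1 i := by
    filter_upwards [dm_nhds hz] with y hy using rO_apply h u hy
  rw [rO_apply _ _ hz, dO_apply _ hz, dO_apply _ (dm_mono h hz), dC_congr h1]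

/-- gluing -/
theorem glue (a : FO A W k) (b : FO A U k)
    (hab : ∀ i, ∀ z ∈ dm A W i, z ∈ dm A U i → a.1 i z = b.1 i z) :
    ∃ u : FO A (W ⊔ U) k, rO A k le_sup_left u = a ∧ rO A k le_sup_right u = b := by
  classical
  let w : A.ι → Cn n → Fb n := fun i z => if z ∈ dm A W i then a.1 i z else b.1 i z
  have hW : ∀ i, ∀ z ∈ dm A W i, w i z = a.1 i z := fun i z hz => if_pos hz
  have hU : ∀ i, ∀ z ∈ dm A U i, w i z = b.1 i z := fun i z hz => by
    by_cases h : z ∈ dm A W i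
    · rw [hW i z h, hab i z h hz]
    · exact if_neg h
  refine ⟨FO.mk' w (fun i z hz => ?_) (fun i j z hz h => ?_) fun i z hz => ?_,
    FO.ext' fun i z hz => ?_, FO.ext' fun i z hz => ?_⟩
  · rcases mem_dm_sup.1 hz with h | h
    · exact (a.sm h).congr (by filter_upwards [dm_nhds h] with y hy using hW i y hy)
    · exact (b.sm h).congr (by filter_upwards [dm_nhds h] with y hy using hU i y hy)
  · rcases mem_dm_sup.1 h with h | h
    · rw [hW i z h, hW j _ ((dm_tr hz).2 h), a.tr' hz]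
    · rw [hU i z h, hU j _ ((dm_tr hz).2 h), b.tr' hz]
  · rcases mem_dm_sup.1 hz with h | h
    · rw [hW i z h]; exact a.deg i z
    · rw [hU i z h]; exact b.deg i z
  · rw [rO_apply _ _ hz, FO.mk'_apply (dm_mono le_sup_left hz), hW i z hz]
  · rw [rO_apply _ _ hz, FO.mk'_apply (dm_mono le_sup_right hz), hU i z hz]

/-- extension by zero after multiplication by a cut-off function -/
theorem exists_mul {ρ : M → ℝ} (hV : ∀ x ∈ W, x ∉ V → ρ =ᶠ[𝓝 x] fun _ => 0)
    (hρ : ∀ i, ∀ x ∈ (A.e i).source, x ∈ W → R275.EDR890.SmP A i ρ x) (c : FO A V k) :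
    ∃ u : FO A W k, ∀ i, ∀ z ∈ dm A W i, u.1 i z = (ρ ((A.e i).symm z) : ℂ) • c.1 i z := by
  refine ⟨FO.mk' (fun i z => (ρ ((A.e i).symm z) : ℂ) • c.1 i z) (fun i z hz => ?_)
    (fun i j z hz _ => ?_) fun i z _ => Submodule.smul_mem _ _ (c.deg i z),
    fun i z hz => FO.mk'_apply hz⟩
  · by_cases h : (A.e i).symm z ∈ V
    · have h1 := hρ i _ ((A.e i).map_target hz.1) hz.2
      rw [R275.EDR890.SmP, (A.e i).right_inv hz.1] at h1
      exact CD_fsmul (Complex.ofRealCLM.contDiff.contDiffAt.comp z h1) (c.sm ⟨hz.1, h⟩)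
    · refine (CD.const 0).congr ?_
      filter_upwards [((A.e i).continuousAt_symm hz.1).eventually (hV _ hz.2 h)] with y hy
      rw [hy, Complex.ofReal_zero, zero_smul]
  · rw [pbC_smul, symm_tr hz, ← c.tr' hz]

/-- **Mayer-Vietoris** -/
theorem mv {f g : M → ℝ} (hf : IsBump A (W : Set M) f) (hg : IsBump A (U : Set M) g) :
    Nonempty (EDR890.Cx.SES (cx A (W ⊔ U)) ((cx A W).prod (cx A U)) (cx A (W ⊓ U))) := by
  let p : ∀ k, FO A W k × FO A U k →ₗ[ℂ] FO A (W ⊓ U) k := fun k =>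
    rO A k inf_le_left ∘ₗ LinearMap.fst ℂ _ _ - rO A k inf_le_right ∘ₗ LinearMap.snd ℂ _ _
  have hp : ∀ k a b, p k (a, b) = rO A k inf_le_left a - rO A k inf_le_right b := fun _ _ _ => rfl
  have hp' : ∀ k a b i, ∀ z ∈ dm A (W ⊓ U) i, (p k (a, b)).1 i z = a.1 i z - b.1 i z := by
    intro k a b i z hz
    show (rO A k inf_le_left a).1 i z - (rO A k inf_le_right b).1 i z = _
    rw [rO_apply _ _ hz, rO_apply _ _ hz]
  refine ⟨{ f := { f := fun k => (rO A k le_sup_left).prod (rO A k le_sup_right)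
                   comm := fun k u => Prod.ext (rO_dO _ u) (rO_dO _ u) }
            g := { f := p, comm := ?_ }
            inj := fun k => ?_
            surj := fun k c => ?_
            exact := ?_ }⟩
  · rintro k ⟨a, b⟩
    show p (k + 1) (dO A W k a, dO A U k b) = dO A (W ⊓ U) k (p k (a, b))
    rw [hp, hp, map_sub, rO_dO, rO_dO]
  · refine (injective_iff_map_eq_zero _).2 fun u hu => FO.ext' fun i z hz => ?_
    have h1 : rO A k le_sup_left u = 0 := congrArg Prod.fst hu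
    have h2 : rO A k le_sup_right u = 0 := congrArg Prod.snd hu
    rcases mem_dm_sup.1 hz with h | h
    · rw [← rO_apply le_sup_left u h, h1]; rfl
    · rw [← rO_apply le_sup_right u h, h2]; rfl
  · obtain ⟨a, ha⟩ := exists_mul (W := W) (V := W ⊓ U) (ρ := R275.EDR890.cut f g)
      (fun x hx h => R275.EDR890.cut_zero hf hg hx fun h' => h (show x ∈ W ⊓ U from ⟨hx, h'⟩))
      (fun i x hx hW => R275.EDR890.cut_smP hf hg hx (Or.inl hW)) c
    obtain ⟨b, hb⟩ := exists_mul (W := U) (V := W ⊓ U) (ρ := fun x => R275.EDR890.cut f g x - 1)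
      (fun x hx h => (R275.EDR890.cut_one hf hg (fun h' => h (show x ∈ W ⊓ U from ⟨h', hx⟩))
        hx).mono fun y hy => by
        simp only [hy, sub_self])
      (fun i x hx hU => ContDiffAt.sub (R275.EDR890.cut_smP hf hg hx (Or.inr hU))
        contDiffAt_const) c
    refine ⟨(a, b), FO.ext' fun i z hz => ?_⟩
    refine (hp' k a b i z hz).trans ?_
    rw [ha i z (mem_dm_inf.1 hz).1, hb i z (mem_dm_inf.1 hz).2, ← sub_smul]
    simp
  · rintro k ⟨a, b⟩
    constructor
    · intro h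
      replace h : p k (a, b) = 0 := h
      obtain ⟨u, h1, h2⟩ := glue a b fun i z hW hU => by
        rw [← sub_eq_zero, ← hp' k a b i z (mem_dm_inf.2 ⟨hW, hU⟩), h]
        rfl
      exact ⟨u, Prod.ext h1 h2⟩
    · rintro ⟨u, hu⟩
      obtain ⟨rfl, rfl⟩ : rO A k le_sup_left u = a ∧ rO A k le_sup_right u = b :=
        ⟨congrArg Prod.fst hu, congrArg Prod.snd hu⟩
      refine FO.ext' fun i z hz => (hp' k _ _ i z hz).trans ?_
      rw [rO_apply _ _ (mem_dm_inf.1 hz).1, rO_apply _ _ (mem_dm_inf.1 hz).2, sub_self]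
      rfl

end Crest.Agent.X262.Eul76
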