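import Crest.Agent.X262.Eul76.Mv
import Crest.Agent.X262.PD.Cpt

/-!
# X262/Eul76 (helper76), file Nrv: the Poincare lemma and the nerve formula

* `poin` : the Poincare lemma on a convex set;
* `nerve` : for a finite good atlas the cohomology is finite dimensional and its Euler
  characteristic is the one of the nerve;  `h0_top` : `b₀ = 1` on a connected manifold.
-/

set_option autoImplicit false
set_option linter.unusedSectionVars false

open Set Filter Topology TopologicalSpace Module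
open scoped ContDiff

noncomputable section

namespace Crest.Agent.X262.Eul76

open Crest.Agent.R208.F Crest.Agent.R208.FI Crest.Agent.R208.CW Crest.Agent.R275.Geo
  Crest.Agent.X262.Kah Crest.Agent.X262.Frm
open Crest.Agent.R275 (EDR890.Cx GC293.GoodA)
open Crest.Agent.R275.EDR890 (nerveChi)

section flat

variable {E : Type*} [NormedAddCommGroup E] [NormedSpace ℝ E] [FiniteDimensional ℝ E] {V : Set E}
  {z₀ : E}

theorem poin_real (hV : Convex ℝ V) (h0 : z₀ ∈ V) {a : E → Ext E}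
    (sa : ∀ z ∈ V, ContDiffAt ℝ ∞ a z) (ca : ∀ z ∈ V, d a z = 0) :
    ∃ (ξ : E → Ext E) (κ : ℝ), (∀ z ∈ V, ContDiffAt ℝ ∞ ξ z) ∧
      ∀ z ∈ V, a z = d ξ z + algebraMap ℝ (Ext E) κ := by
  let Fh : E × ℝ → E := fun p => (1 - p.2) • z₀ + p.2 • p.1
  have hF : ContDiff ℝ ∞ Fh := by fun_prop
  have hm : ∀ z ∈ V, ∀ t ∈ Icc (0 : ℝ) 1, Fh (z, t) ∈ V := fun z hz t ht =>
    hV h0 hz (sub_nonneg.2 ht.2) ht.1 (sub_add_cancel _ _)
  refine ⟨Hop Fh a, evA E 0 (a z₀) Fin.elim0,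
    fun z hz => contDiffAt_Hop (fun t _ => hF.contDiffAt) fun t ht => sa _ (hm z hz t ht),
    fun z hz => ?_⟩
  have h1 := d_hop_pull (j := ContinuousLinearMap.inl ℝ E ℝ) (v := ((0, 1) : E × ℝ)) (Fh := Fh)
    (om := a) (x := z) (fun t _ => hF.contDiffAt.of_le Kah.two_le_inf)
    fun t ht => by rw [jv_inl]; exact (sa _ (hm z hz t ht)).of_le Kah.one_le_inf
  have h2 : Hop Fh (d a) z = 0 := PD.Hop_eq_zero' fun t ht => ca _ (hm z hz t ht)
  simp only [jv_inl, Fh, sub_self, zero_smul, one_smul, zero_add, sub_zero, add_zero] at h1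
  rw [pull_id, pull, fderiv_fun_const] at h1
  rw [← PD.pb_zero_eq (T := E), ← sub_eq_iff_eq_add]
  refine h1.symm.trans ?_
  exact (congrArg (d (Hop Fh a) z + ·) h2).trans (add_zero _)

/-- **the Poincare lemma** -/
theorem poin (hV : Convex ℝ V) (h0 : z₀ ∈ V) {a : E → CF E} (sa : ∀ z ∈ V, CD ∞ a z)
    (ca : ∀ z ∈ V, dC a z = 0) : ∃ (ξ : E → CF E) (κ : ℂ), (∀ z ∈ V, CD ∞ ξ z) ∧
      ∀ z ∈ V, a z = dC ξ z + algebraMap ℂ (CF E) κ := by
  obtain ⟨ξ, κ, h1, h2⟩ := poin_real hV h0 (fun z hz => (sa z hz).re)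
    fun z hz => congrArg Cx.re (ca z hz)
  obtain ⟨η, μ, k1, k2⟩ := poin_real hV h0 (fun z hz => (sa z hz).im)
    fun z hz => congrArg Cx.im (ca z hz)
  exact ⟨fun z => ⟨ξ z, η z⟩, ⟨κ, μ⟩, fun z hz => ⟨h1 z hz, k1 z hz⟩,
    fun z hz => Cx.ext (h2 z hz) (k2 z hz)⟩

theorem poin_zero (hV : Convex ℝ V) {a : E → CF E} (sa : ∀ z ∈ V, CD ∞ a z)
    (ca : ∀ z ∈ V, dC a z = 0) (ha : ∀ z ∈ V, a z ∈ Dg E 0) :
    ∃ κ : ℂ, ∀ z ∈ V, a z = algebraMap ℂ (CF E) κ := by
  rcases V.eq_empty_or_nonempty with rfl | ⟨z₀, h0⟩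
  · exact ⟨0, fun _ h => h.elim⟩
  obtain ⟨ξ, κ, h1, h2⟩ := poin hV h0 sa ca
  refine ⟨κ, fun z hz => ?_⟩
  rw [← dg_self (ha z hz), h2 z hz, map_add,
    dg_dC_zero ((cd_iff.1 (h1 z hz)).differentiableAt (by simp)), zero_add,
    dg_self (Dg_algebraMap κ)]

theorem poin_succ (hV : Convex ℝ V) {a : E → CF E} (sa : ∀ z ∈ V, CD ∞ a z)
    (ca : ∀ z ∈ V, dC a z = 0) {k : ℕ} (ha : ∀ z ∈ V, a z ∈ Dg E (k + 1)) :
    ∃ ξ : E → CF E, (∀ z ∈ V, CD ∞ ξ z) ∧ (∀ z, ξ z ∈ Dg E k) ∧ ∀ z ∈ V, dC ξ z = a z := by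
  rcases V.eq_empty_or_nonempty with rfl | ⟨z₀, h0⟩
  · exact ⟨0, fun _ h => h.elim, fun _ => zero_mem _, fun _ h => h.elim⟩
  obtain ⟨ξ, κ, h1, h2⟩ := poin hV h0 sa ca
  refine ⟨fun z => dg k (ξ z), fun z hz => cd_iff.2 (ContDiffAt.lin _ (cd_iff.1 (h1 z hz))),
    fun z => dg_mem _ _, fun z hz => ?_⟩
  rw [← dg_self (ha z hz), h2 z hz, map_add,
    dg_dC ((cd_iff.1 (h1 z hz)).differentiableAt (by simp)),
    dg_ne (Dg_algebraMap κ) (Nat.succ_ne_zero k).symm, add_zero]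

end flat

variable {n : ℕ} {M : Type} [TopologicalSpace M] {A : Atl n M} {U : Opens M} {i j l : A.ι}
  {z : Cn n} {k : ℕ} {x : M}

theorem tr_diff (hz : z ∈ A.ov i j) : DifferentiableAt ℝ (tr A i j) z :=
  (tr_contDiffAt hz).differentiableAt (by simp)

/-- a form on an open subset of a chart from its expression in that chart -/
theorem exists_of_chart (hU : (U : Set M) ⊆ (A.e i).source) {g : Cn n → Fb n}
    (h1 : ∀ z ∈ dm A U i, CD ∞ g z) (h2 : ∀ z, g z ∈ Dg (Cn n) k) :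
    ∃ u : FO A U k, ∀ z ∈ dm A U i, u.1 i z = g z := by
  have ov : ∀ {j z}, z ∈ dm A U j → z ∈ A.ov j i := fun hz => ⟨hz.1, hU hz.2⟩
  refine ⟨FO.mk' (fun j => pullC (tr A j i) g)
    (fun j z hz => CD.pullC (tr_contDiffAt (ov hz)) (le_refl _) (h1 _ ((dm_tr (ov hz)).2 hz)))
    (fun j l z hz h => ?_) fun j z _ => Dg_pbC _ (h2 _), fun z hz => ?_⟩
  · rw [← pullC_tr, pullC_comp (tr_diff hz) (tr_diff (ov ((dm_tr hz).2 h)))]
    refine pullC_congr ?_ rfl
    filter_upwards [(isOpen_ov' j l).mem_nhds hz] with y hy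
    show _ = A.e i ((A.e l).symm (tr A j l y))
    rw [symm_tr hy]
    rfl
  · rw [FO.mk'_apply hz, ← pullC_id g z]
    refine pullC_congr ?_ rfl
    filter_upwards [(A.e i).open_target.mem_nhds hz.1] with y hy using (A.e i).right_inv hy

variable (A U) in
/-- constants -/
def cst : ℂ →ₗ[ℂ] FO A U 0 :=
  LinearMap.toSpanSingleton ℂ _ (FO.mk' (fun _ _ => 1) (fun _ _ _ => CD.const 1)
    (fun _ _ _ _ _ => (map_one _).symm) fun _ _ _ => Dg_one)

theorem cst_apply (c : ℂ) (hz : z ∈ dm A U i) : (cst A U c).1 i z = algebraMap ℂ (Fb n) c := by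
  rw [Algebra.algebraMap_eq_smul_one]
  exact congrArg (c • ·) (FO.mk'_apply hz)

theorem dO_cst (c : ℂ) : dO A U 0 (cst A U c) = 0 := FO.ext' fun i z hz => by
  have h1 : (cst A U c).1 i =ᶠ[𝓝 z] fun _ => algebraMap ℂ (Fb n) c := by
    filter_upwards [dm_nhds hz] with y hy using cst_apply c hy
  rw [dO_apply _ hz, dC_congr h1, dC_const]
  rfl

theorem algebraMap_inj : Function.Injective (algebraMap ℂ (Fb n)) := fun a b h => by
  rw [← evC_zero_algebraMap (E := Cn n) a Fin.elim0, h, evC_zero_algebraMap]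

theorem h0_of (hne : (U : Set M).Nonempty)
    (h : ∀ u : FO A U 0, dO A U 0 u = 0 → ∃ c, cst A U c = u) :
    Nonempty (ℂ ≃ₗ[ℂ] (cx A U).H 0) := by
  let f : ℂ →ₗ[ℂ] (cx A U).Z 0 := (cst A U).codRestrict ((cx A U).Z 0) dO_cst
  refine ⟨LinearEquiv.ofBijective ((cx A U).cls 0 ∘ₗ f)
    ⟨(injective_iff_map_eq_zero _).2 fun c hc => ?_, fun y => ?_⟩⟩
  · have h1 : cst A U c = 0 := R275.EDR890.Cx.cls_eq_zero.1 hc
    obtain ⟨x, hx⟩ := hne
    obtain ⟨i, hi⟩ := A.cover x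
    refine algebraMap_inj (n := n) ?_
    rw [← cst_apply c (e_mem_dm hi hx), h1, map_zero]
    rfl
  · obtain ⟨u, rfl⟩ := (cx A U).cls_surjective 0 y
    obtain ⟨c, hc⟩ := h u.1 u.2
    exact ⟨c, congrArg ((cx A U).cls 0) (Subtype.ext hc)⟩

theorem dC_of_closed {u : FO A U k} (hu : dO A U k u = 0) (hz : z ∈ dm A U i) :
    dC (u.1 i) z = 0 := by
  rw [← dO_apply u hz, hu]
  rfl

theorem good_zero (hU : (U : Set M) ⊆ (A.e i).source) (hc : Convex ℝ (dm A U i))
    (hne : (U : Set M).Nonempty) : Nonempty (ℂ ≃ₗ[ℂ] (cx A U).H 0) :=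
  h0_of hne fun u hu => by
    obtain ⟨κ, h⟩ := poin_zero hc (fun _ hz => u.sm hz) (fun _ hz => dC_of_closed hu hz)
      fun z _ => u.deg i z
    exact ⟨κ, FO.ext_chart hU fun z hz => by rw [cst_apply _ hz, h z hz]⟩

theorem good_succ (hU : (U : Set M) ⊆ (A.e i).source) (hc : Convex ℝ (dm A U i)) (k : ℕ) :
    Subsingleton ((cx A U).H (k + 1)) := by
  refine subsingleton_of_forall_eq 0 fun y => ?_
  obtain ⟨⟨u, hu⟩, rfl⟩ := (cx A U).cls_surjective (k + 1) y
  obtain ⟨ξ, h1, h2, h3⟩ := poin_succ hc (fun _ hz => FO.sm u hz)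
    (fun _ hz => dC_of_closed hu hz) fun z _ => FO.deg u i z
  obtain ⟨v, hv⟩ := exists_of_chart hU h1 h2
  refine R275.EDR890.Cx.cls_eq_zero.2 ⟨v, FO.ext_chart hU fun z hz => ?_⟩
  refine (dO_apply v hz).trans (Eq.trans (dC_congr ?_) (h3 z hz))
  filter_upwards [dm_nhds hz] with y hy using hv y hy

theorem finrank_Cn (n : ℕ) : finrank ℝ (Cn n) = 2 * n := by
  rw [finrank_real_of_complex, finrank_euclideanSpace_fin]

theorem subsingleton_FO (hk : 2 * n < k) : Subsingleton (FO A U k) :=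
  subsingleton_of_forall_eq 0 fun u => FO.ext' fun i z _ =>
    eq_zero_of_Dg (u.deg i z) (by rwa [finrank_Cn])

theorem subsingleton_bot : Subsingleton (FO A ⊥ k) :=
  subsingleton_of_forall_eq 0 fun _ => FO.ext' fun _ _ hz => hz.2.elim

/-- **the nerve formula** -/
theorem nerve [Fintype A.ι] (hA : GC293.GoodA A) (P : Part A) :
    (∀ k, Module.Finite ℂ ((cx A ⊤).H k)) ∧
      (cx A ⊤).chi (2 * n + 1) = nerveChi (fun i => (A.e i).source) Finset.univ := by
  have hI : ∀ W : Opens M, Opens.interior (W : Set M) = W := fun W => Opens.ext W.isOpen.interior_eq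
  have good : ∀ s : Finset A.ι, s.Nonempty → ∃ (W : Opens M) (i : A.ι),
      (⋂ i ∈ s, (A.e i).source) = W ∧ (W : Set M) ⊆ (A.e i).source ∧ Convex ℝ (dm A W i) := by
    intro s hs
    obtain ⟨i, h1, h2⟩ := R275.EDR890.good_of_goodA hA s hs
    refine ⟨⟨_, isOpen_biInter_finset fun j _ => (A.e j).open_source⟩, i, rfl, h1, ?_⟩
    rwa [(A.e i).image_eq_target_inter_inv_preimage h1] at h2
  have key := R275.EDR890.mv_euler (k := ℂ) (2 * n + 1) IsOpen (fun W => cx A (Opens.interior W))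
    (fun W => subsingleton_FO (Nat.lt_succ_self _)) (fun _ _ => IsOpen.union) isOpen_empty
    (fun k => by
      rw [← Opens.coe_bot, hI]
      exact subsingleton_bot)
    (fun W U hW hU => by
      obtain ⟨W, rfl⟩ : ∃ W' : Opens M, (W' : Set M) = W := ⟨⟨W, hW⟩, rfl⟩
      obtain ⟨U, rfl⟩ : ∃ U' : Opens M, (U' : Set M) = U := ⟨⟨U, hU⟩, rfl⟩
      obtain ⟨f, hf⟩ := R275.EDR890.exists_isBump P W
      obtain ⟨g, hg⟩ := R275.EDR890.exists_isBump P U
      rw [← Opens.coe_sup, ← Opens.coe_inf, hI, hI, hI, hI]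
      exact mv hf hg)
    Finset.univ (fun i => (A.e i).source)
    (fun s _ _ => isOpen_biInter_finset fun j _ => (A.e j).open_source)
    (fun s _ hs k => by
      obtain ⟨W, i, e, h1, h2⟩ := good s hs
      rw [e, hI]
      rcases k with _ | k
      · rcases (W : Set M).eq_empty_or_nonempty with h | h
        · obtain rfl : W = ⊥ := Opens.ext h
          have : Subsingleton ((cx A ⊥).M 0) := subsingleton_bot
          have := (cx A ⊥).subsingleton_H 0
          infer_instance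
        · exact (good_zero h1 h2 h).some.finiteDimensional
      · have := good_succ h1 h2 k
        infer_instance)
    (fun s _ hs hne => by
      obtain ⟨W, i, e, h1, h2⟩ := good s hs
      rw [e] at hne
      rw [e, hI, R275.EDR890.Cx.chi, Finset.sum_range_succ', Finset.sum_eq_zero fun k _ => by
        have := good_succ h1 h2 k
        rw [finrank_zero_of_subsingleton, Nat.cast_zero, mul_zero],
        ← (good_zero h1 h2 hne).some.finrank_eq]
      simp)
  have e : (⋃ i ∈ (Finset.univ : Finset A.ι), (A.e i).source) = ((⊤ : Opens M) : Set M) :=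
    eq_univ_of_forall fun x => (A.cover x).elim fun i hi => mem_iUnion₂.2 ⟨i, Finset.mem_univ i, hi⟩
  rw [e, hI] at key
  exact key.2

/-- closed functions on a connected manifold are constant -/
theorem h0_top [ConnectedSpace M] (hA : GC293.GoodA A) : finrank ℂ ((cx A ⊤).H 0) = 1 := by
  refine (h0_of (U := ⊤) univ_nonempty fun u hu => ?_).some.finrank_eq.symm.trans
    (finrank_self ℂ)
  have hc : ∀ i, Convex ℝ (dm A ⊤ i) := fun i => by
    have e : dm A ⊤ i = A.ov i i :=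
      Set.ext fun z => ⟨fun h => ⟨h.1, (A.e i).map_target h.1⟩, fun h => ⟨h.1, trivial⟩⟩
    exact e ▸ hA i i
  choose κ hκ using fun i => poin_zero (hc i) (fun _ hz => u.sm hz)
    (fun _ hz => dC_of_closed hu hz) fun z _ => u.deg i z
  have h1 : ∀ {i j x}, x ∈ (A.e i).source → x ∈ (A.e j).source → κ i = κ j := by
    intro i j x hi hj
    have h := u.tr' (Kah.mem_ov ⟨hi, hj⟩)
    rw [tr_e hi, hκ i _ (e_mem_dm hi trivial), hκ j _ (e_mem_dm hj trivial), pbC_algebraMap] at h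
    exact algebraMap_inj h
  choose ch hch using A.cover
  have h2 : IsLocallyConstant fun x => κ (ch x) :=
    (IsLocallyConstant.iff_eventually_eq _).2 fun x => by
      filter_upwards [(A.e (ch x)).open_source.mem_nhds (hch x)] with y hy using h1 (hch y) hy
  obtain ⟨x₀⟩ : Nonempty M := inferInstance
  refine ⟨κ (ch x₀), FO.ext' fun i z hz => ?_⟩
  rw [cst_apply _ hz, hκ i z hz, h1 ((A.e i).map_target hz.1) (hch _)]
  exact congrArg _ (h2.apply_eq_of_preconnectedSpace _ _)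

end Crest.Agent.X262.Eul76
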